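import Mathlib

set_option autoImplicit false

/-!
Fewer than `m` polynomials in `m` complex variables which vanish at `0` have another common zero.
-/

namespace P287H468

section Height

open MvPolynomial

variable {m : ℕ}

/-- set the first `j` variables to zero -/
noncomputable def kill (m j : ℕ) : MvPolynomial (Fin m) ℂ →ₐ[ℂ] MvPolynomial (Fin m) ℂ :=
  aeval fun i : Fin m => if i.val < j then 0 else X i

theorem kill_X (j : ℕ) (i : Fin m) :
    kill m j (X i) = if i.val < j then 0 else X i := by
  simp only [kill, aeval_eq_bind₁, bind₁_X_right]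

theorem kill_comp (j l : ℕ) (hjl : j ≤ l) (f : MvPolynomial (Fin m) ℂ) :
    kill m l (kill m j f) = kill m l f := by
  have h : (kill m l).comp (kill m j) = kill m l := by
    ext1 i
    rw [AlgHom.comp_apply, kill_X, kill_X]
    split_ifs with h1 h2
    · simp
    · omega
    · rw [kill_X]; simp [*]
    · rw [kill_X]; simp [*]
  exact DFunLike.congr_fun h f

instance (j : ℕ) : (RingHom.ker (kill m j)).IsPrime := RingHom.ker_isPrime _

theorem height_kill (j : ℕ) (hj : j ≤ m) : (j : ℕ∞) ≤ (RingHom.ker (kill m j)).height := by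
  induction j with
  | zero => simp only [CharP.cast_eq_zero, zero_le]
  | succ j ih =>
    have hlt : RingHom.ker (kill m j) < RingHom.ker (kill m (j + 1)) := by
      refine lt_of_le_of_ne ?_ ?_
      · intro f hf
        rw [RingHom.mem_ker] at hf ⊢
        rw [← kill_comp j (j + 1) (Nat.le_succ j), hf, map_zero]
      · intro h
        have h1 : (X (⟨j, hj⟩ : Fin m) : MvPolynomial (Fin m) ℂ) ∈
            RingHom.ker (kill m (j + 1)) := by
          rw [RingHom.mem_ker, kill_X]; simp only [lt_add_iff_pos_right, Order.lt_one_iff, ↓reduceIte]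
        rw [← h, RingHom.mem_ker, kill_X] at h1
        simp at h1
    have h1 := Ideal.height_add_one_le_of_lt_of_isPrime hlt
    refine le_trans ?_ h1
    push_cast
    gcongr
    exact ih (by omega)

theorem height_vanishing :
    (m : ℕ∞) ≤ (vanishingIdeal ℂ {(0 : Fin m → ℂ)} : Ideal (MvPolynomial (Fin m) ℂ)).height := by
  refine (height_kill m le_rfl).trans (Ideal.height_mono fun f hf => ?_)
  rw [RingHom.mem_ker] at hf
  rw [mem_vanishingIdeal_singleton_iff]
  have h : (aeval (0 : Fin m → ℂ)).comp (kill m m) = aeval (0 : Fin m → ℂ) := by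
    ext1 i
    rw [AlgHom.comp_apply, kill_X]; simp only [Fin.is_lt, ↓reduceIte, aeval_zero, Algebra.algebraMap_self, map_zero, RingHom.id_apply, aeval_X, Pi.zero_apply]
  rw [← h, AlgHom.comp_apply, hf, map_zero]

/-- Fewer than `m` polynomials in `m` variables which vanish at `0` have another common zero. -/
theorem exists_zero {k : ℕ} (hk : k < m) (F : Fin k → MvPolynomial (Fin m) ℂ)
    (hF : ∀ j, aeval (0 : Fin m → ℂ) (F j) = 0) :
    ∃ x : Fin m → ℂ, x ≠ 0 ∧ ∀ j, aeval x (F j) = 0 := by
  by_contra hcon
  push Not at hcon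
  set I : Ideal (MvPolynomial (Fin m) ℂ) := Ideal.span (Set.range F) with hI
  have hz : zeroLocus ℂ I = {(0 : Fin m → ℂ)} := by
    rw [hI, zeroLocus_span]
    ext x
    simp only [Set.mem_range, forall_exists_index, forall_apply_eq_imp_iff, Set.mem_ofPred_eq,
      Set.mem_singleton_iff]
    constructor
    · intro h
      by_contra hx
      obtain ⟨j, hj⟩ := hcon x hx
      exact hj (h j)
    · rintro rfl j
      exact hF j
  have hrad : (vanishingIdeal ℂ {(0 : Fin m → ℂ)} : Ideal (MvPolynomial (Fin m) ℂ)) = I.radical := by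
    rw [← hz, vanishingIdeal_zeroLocus_eq_radical]
  have hmin : (vanishingIdeal ℂ {(0 : Fin m → ℂ)} : Ideal (MvPolynomial (Fin m) ℂ)) ∈
      I.minimalPrimes := by
    refine ⟨⟨inferInstance, ?_⟩, ?_⟩
    · rw [hrad]; exact Ideal.le_radical
    · rintro J ⟨hJ, hIJ⟩ -
      change (vanishingIdeal ℂ {(0 : Fin m → ℂ)} : Ideal (MvPolynomial (Fin m) ℂ)) ≤ J
      rw [hrad]
      exact hJ.radical_le_iff.2 hIJ
  have h1 := Ideal.height_le_card_of_mem_minimalPrimes_span (Set.finite_range F) hmin
  have h2 := (height_vanishing (m := m)).trans h1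
  have h3 : (Set.range F).ncard ≤ k := by
    rw [← Set.image_univ]
    refine (Set.ncard_image_le Set.finite_univ).trans ?_
    simp only [Set.ncard_univ, Nat.card_eq_fintype_card, Fintype.card_fin, Std.le_refl]
  have : m ≤ k := le_trans (by exact_mod_cast h2) h3
  omega

end Height

end P287H468
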